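import Vale.Agent.P080.C1.Main

/-!
P080: infinity-harmonic functions are continuously differentiable in every dimension, with an
interior Hölder estimate for the gradient.
-/

namespace Vale.Agent.Results.P080.C1Regularity

open Metric Set
open scoped RealInnerProductSpace

/-- The infinity-Laplacian `⟪D²φ ∇φ, ∇φ⟫` at `z`. -/
noncomputable def infLaplacian {d : ℕ} (φ : EuclideanSpace ℝ (Fin d) → ℝ)
    (z : EuclideanSpace ℝ (Fin d)) : ℝ :=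
  fderiv ℝ (fderiv ℝ φ) z (gradient φ z) (gradient φ z)

/-- Continuous viscosity solution of the infinity-Laplace equation on `s`. -/
def InfHarmonic {d : ℕ} (s : Set (EuclideanSpace ℝ (Fin d)))
    (u : EuclideanSpace ℝ (Fin d) → ℝ) : Prop :=
  ContinuousOn u s ∧
  (∀ z ∈ s, ∀ φ : EuclideanSpace ℝ (Fin d) → ℝ, ContDiff ℝ 2 φ →
    IsLocalMax (fun y => u y - φ y) z → 0 ≤ infLaplacian φ z) ∧
  (∀ z ∈ s, ∀ φ : EuclideanSpace ℝ (Fin d) → ℝ, ContDiff ℝ 2 φ →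
    IsLocalMin (fun y => u y - φ y) z → infLaplacian φ z ≤ 0)

theorem result :
    (∀ (d : ℕ) (Ω : Set (EuclideanSpace ℝ (Fin d))) (u : EuclideanSpace ℝ (Fin d) → ℝ),
      IsOpen Ω → InfHarmonic Ω u → ContDiffOn ℝ 1 u Ω) ∧
    ∀ d : ℕ, ∃ α C : ℝ, 0 < α ∧ 0 < C ∧
      ∀ (x₀ : EuclideanSpace ℝ (Fin d)) (R K : ℝ) (u : EuclideanSpace ℝ (Fin d) → ℝ),
        0 < R → InfHarmonic (ball x₀ R) u →
        (∀ z ∈ ball x₀ R, ∀ w ∈ ball x₀ R, u z - u w ≤ K) →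
        ∀ x ∈ closedBall x₀ (R / 2), ∀ y ∈ closedBall x₀ (R / 2),
          DifferentiableAt ℝ u x ∧
            ‖gradient u x - gradient u y‖ ≤ C * K / R * (‖x - y‖ / R) ^ α := by
  refine ⟨fun d Ω u hΩ hu => Vale.Agent.P080.C1.contDiffOn_one hΩ ⟨hu.1, hu.2.1, hu.2.2⟩,
    fun d => ?_⟩
  obtain ⟨α, C, hα, hC, h⟩ :=
    Vale.Agent.P080.C1.c1alpha (E := EuclideanSpace ℝ (Fin d))
  exact ⟨α, C, hα, hC, fun x₀ R K u hR hu hosc => h hR ⟨hu.1, hu.2.1, hu.2.2⟩ hosc⟩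

end Vale.Agent.Results.P080.C1Regularity
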