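import Vale.Agent.P080.Holder

/-!
P080: interior `C^{1,α}` estimate, with `α` and the constant independent of the dimension, for
classical infinity-harmonic functions and for their locally uniform limits.
-/

namespace Vale.Agent.Results.P080.ClassicalHolder

open Metric Set Filter Topology
open scoped RealInnerProductSpace

/-- A classical infinity-harmonic function: `C³` with `D²u(Du, Du) = 0` pointwise. -/
def ClassicalSol {d : ℕ} (s : Set (EuclideanSpace ℝ (Fin d)))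
    (u : EuclideanSpace ℝ (Fin d) → ℝ) : Prop :=
  ContDiffOn ℝ 3 u s ∧
    ∀ z ∈ s, fderiv ℝ (fderiv ℝ u) z (gradient u z) (gradient u z) = 0

theorem result :
    ∃ α C : ℝ, 0 < α ∧ 0 < C ∧
      (∀ (d : ℕ) (x₀ : EuclideanSpace ℝ (Fin d)) (R K : ℝ)
        (u : EuclideanSpace ℝ (Fin d) → ℝ), 0 < R → ClassicalSol (ball x₀ R) u →
        (∀ z ∈ ball x₀ R, ∀ w ∈ ball x₀ R, u z - u w ≤ K) →
        ∀ x ∈ closedBall x₀ (R / 2), ∀ y ∈ closedBall x₀ (R / 2),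
          ‖gradient u y - gradient u x‖ ≤ C * K / R * (dist y x / R) ^ α) ∧
      (∀ (d : ℕ) (x₀ p : EuclideanSpace ℝ (Fin d)) (R c D : ℝ)
        (u : EuclideanSpace ℝ (Fin d) → ℝ), 0 < R → 0 < D → D ≤ 1 / 8 →
        ClassicalSol (ball x₀ R) u →
        (∀ y ∈ ball x₀ R, |u y - c - ⟪p, y - x₀⟫| ≤ D * ‖p‖ * R) →
        ∀ x, dist x x₀ ≤ R / 8 → ‖gradient u x - p‖ ^ 2 ≤ 6000 * D * ‖p‖ ^ 2) ∧
      (∀ (d : ℕ) (Ω : Set (EuclideanSpace ℝ (Fin d))) (U : ℕ → EuclideanSpace ℝ (Fin d) → ℝ)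
        (u : EuclideanSpace ℝ (Fin d) → ℝ), IsOpen Ω → (∀ n, ClassicalSol Ω (U n)) →
        TendstoLocallyUniformlyOn U u atTop Ω →
        ContDiffOn ℝ 1 u Ω ∧
          ∀ (x₀ : EuclideanSpace ℝ (Fin d)) (R K : ℝ), 0 < R → ball x₀ R ⊆ Ω →
            (∀ z ∈ ball x₀ R, ∀ w ∈ ball x₀ R, u z - u w ≤ K) →
            ∀ x ∈ ball x₀ (R / 2), ∀ y ∈ ball x₀ (R / 2),
              ‖gradient u y - gradient u x‖ ≤ C * K / R * (dist y x / R) ^ α) := by
  obtain ⟨α, C, hα, hC, hest⟩ := Vale.Agent.P080.holder_ball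
  exact ⟨α, C, hα, hC, fun d x₀ R K u hR hu => hest d x₀ R K u hR hu.1 hu.2,
    fun _ _ _ _ _ _ _ hR hD hD8 hu hflat _ hx =>
      Vale.Agent.P080.flat_gradient hR hD hD8 hu.1 hu.2 hflat hx,
    fun _ _ _ _ hΩ hU hlim =>
      ⟨Vale.Agent.P080.limit_contDiffOn hΩ (fun n => (hU n).1) (fun n => (hU n).2) hlim,
        fun _ _ _ hR hball hosc _ hx _ hy =>
          Vale.Agent.P080.holder_limit hC.le hα.le hest hΩ (fun n => (hU n).1)
            (fun n => (hU n).2) hlim hR hball hosc hx hy⟩⟩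

end Vale.Agent.Results.P080.ClassicalHolder
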