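import Mathlib
import Vale.Agent.P080.Semiconvex

/-
P080: semiconvex infinity-superharmonic (or semiconcave infinity-subharmonic) functions are
C¹, with a dimension-free interior C^{1,1/3} estimate.
-/

namespace Vale.Agent.Results.P080.SemiconvexClass

open Metric Set Filter Topology
open scoped RealInnerProductSpace
open Vale.Agent.P080

/-- The infinity-Laplacian `⟪D²φ ∇φ, ∇φ⟫` at `z`. -/
noncomputable def infLaplacian {d : ℕ} (φ : EuclideanSpace ℝ (Fin d) → ℝ)
    (z : EuclideanSpace ℝ (Fin d)) : ℝ :=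
  fderiv ℝ (fderiv ℝ φ) z (gradient φ z) (gradient φ z)

/-- Viscosity supersolution of the infinity-Laplace equation on `s`. -/
def InfSupersolution {d : ℕ} (s : Set (EuclideanSpace ℝ (Fin d)))
    (u : EuclideanSpace ℝ (Fin d) → ℝ) : Prop :=
  ∀ z ∈ s, ∀ φ : EuclideanSpace ℝ (Fin d) → ℝ, ContDiff ℝ 2 φ →
    IsLocalMin (fun y => u y - φ y) z → infLaplacian φ z ≤ 0

/-- Viscosity subsolution of the infinity-Laplace equation on `s`. -/
def InfSubsolution {d : ℕ} (s : Set (EuclideanSpace ℝ (Fin d)))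
    (u : EuclideanSpace ℝ (Fin d) → ℝ) : Prop :=
  ∀ z ∈ s, ∀ φ : EuclideanSpace ℝ (Fin d) → ℝ, ContDiff ℝ 2 φ →
    IsLocalMax (fun y => u y - φ y) z → 0 ≤ infLaplacian φ z

/-- Choice of the radius in the two-point inequality. -/
theorem choose_radius {D h R K k T : ℝ} (hh : 0 < h) (hR : 0 < R) (hK : 0 ≤ K) (hk : 0 ≤ k)
    (hT : 0 ≤ T) (hT3 : T ^ 3 = (4 * K / R) ^ 2 * k * h) (hDM : D ≤ 2 * (4 * K / R))
    (hD : ∀ r, h ≤ r → r ≤ R / 4 →
      D ≤ 2 * (4 * K / R) * h / r + 5 * Real.sqrt (k * (4 * K / R) * r)) :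
    D ≤ 32 * K / R ^ 2 * h + 7 * T := by
  set M := 4 * K / R with hM
  have hM0 : 0 ≤ M := by positivity
  have hlin : 32 * K / R ^ 2 * h = 8 * M * h / R := by rw [hM]; field_simp; ring
  rw [hlin]
  have hpos : 0 ≤ 8 * M * h / R := by positivity
  rcases le_or_gt (R / 4) h with hb | hb
  · have : 2 * M ≤ 8 * M * h / R := by
      rw [le_div_iff₀ hR]
      nlinarith
    linarith
  by_cases hTM : M < T
  · linarith
  push Not at hTM
  have hbig : 2 * M * h / (R / 4) = 8 * M * h / R := by field_simp; ring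
  rcases eq_or_lt_of_le hT with hT0 | hT0
  · have hz : k * M = 0 := by
      rw [← hT0] at hT3
      rcases mul_eq_zero.1 (by linarith : M ^ 2 * k * h = 0) with h1 | h1
      · rcases mul_eq_zero.1 h1 with h2 | h2
        · rw [pow_eq_zero_iff two_ne_zero] at h2
          rw [h2, mul_zero]
        · rw [h2, zero_mul]
      · exact absurd h1 hh.ne'
    have := hD (R / 4) hb.le le_rfl
    rw [hz, zero_mul, Real.sqrt_zero, hbig] at this
    linarith
  have hM1 : 0 < M := lt_of_lt_of_le hT0 hTM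
  set r₀ := M * h / T with hr₀
  have hr : h ≤ r₀ := by rw [hr₀, le_div_iff₀ hT0]; nlinarith
  have hkey : k * M * r₀ = T ^ 2 := by
    rw [hr₀]; field_simp; linarith
  rcases le_or_gt r₀ (R / 4) with hc | hc
  · have := hD r₀ hr hc
    rw [hkey, Real.sqrt_sq hT, show 2 * M * h / r₀ = 2 * T by rw [hr₀]; field_simp] at this
    linarith
  · have := hD (R / 4) hb.le le_rfl
    have hs : Real.sqrt (k * M * (R / 4)) ≤ T := by
      rw [Real.sqrt_le_iff]
      exact ⟨hT, hkey ▸ mul_le_mul_of_nonneg_left hc.le (by positivity)⟩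
    rw [hbig] at this
    linarith

theorem convex_case {d : ℕ} {x₀ : EuclideanSpace ℝ (Fin d)} {R k : ℝ} (hR : 0 < R) (hk : 0 ≤ k)
    {u : EuclideanSpace ℝ (Fin d) → ℝ}
    (hconv : ConvexOn ℝ (ball x₀ R) fun z => u z + k / 2 * ‖z‖ ^ 2)
    (hsup : ∀ z ∈ ball x₀ R, ∀ φ : EuclideanSpace ℝ (Fin d) → ℝ, ContDiff ℝ 2 φ →
      IsLocalMin (fun y => u y - φ y) z →
        fderiv ℝ (fderiv ℝ φ) z (gradient φ z) (gradient φ z) ≤ 0) :
    ContDiffOn ℝ 1 u (ball x₀ R) ∧
      ∀ K : ℝ, (∀ a ∈ ball x₀ R, ∀ b ∈ ball x₀ R, |u a - u b| ≤ K) →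
        ∀ x ∈ ball x₀ (R / 2), ∀ y ∈ ball x₀ (R / 2),
          ‖fderiv ℝ u x - fderiv ℝ u y‖ ≤ 32 * K / R ^ 2 * ‖x - y‖ +
            7 * (16 * K ^ 2 * k * ‖x - y‖ / R ^ 2) ^ (1 / 3 : ℝ) := by
  have hcont : ContinuousOn u (ball x₀ R) := by
    refine ((hconv.continuousOn isOpen_ball).sub
      (continuous_const.mul (continuous_norm.pow 2)).continuousOn
      (g := fun z : EuclideanSpace ℝ (Fin d) => k / 2 * ‖z‖ ^ 2)).congr fun z _ => ?_
    simp
  choose G hG using fun (x : EuclideanSpace ℝ (Fin d)) (hx : x ∈ ball x₀ R) =>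
    subgrad' isOpen_ball hconv hx
  -- bounds for the chosen subgradients
  have est : ∀ (R₁ e K : ℝ), 0 < e → R₁ + e < R → 0 ≤ K →
      (∀ a ∈ closedBall x₀ (R₁ + e), ∀ b ∈ closedBall x₀ (R₁ + e), |u a - u b| ≤ K) →
      ∀ x y (hx : x ∈ ball x₀ R) (hy : y ∈ ball x₀ R),
        x ∈ closedBall x₀ R₁ → y ∈ closedBall x₀ R₁ →
        ‖G x hx - G y hy‖ ≤ 2 * (K / e) ∧ ∀ r, 0 < r → ‖x - y‖ ≤ r → r ≤ e →
          ‖G x hx - G y hy‖ ≤ 2 * (K / e) * ‖x - y‖ / r + 5 * Real.sqrt (k * (K / e) * r) := by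
    intro R₁ e K he hRe hK hosc x y hx hy hx1 hy1
    have hsub : closedBall x₀ (R₁ + e) ⊆ ball x₀ R := closedBall_subset_ball hRe
    have hin : ∀ z ∈ closedBall x₀ R₁, closedBall z e ⊆ closedBall x₀ (R₁ + e) := fun z hz =>
      closedBall_subset_closedBall' (by rw [mem_closedBall] at hz; linarith)
    have nb : ∀ z (hz : z ∈ ball x₀ R), z ∈ closedBall x₀ R₁ → ‖G z hz‖ ≤ K / e := by
      intro z hz hz1
      rw [le_div_iff₀ he, mul_comm]
      exact norm_le isOpen_ball hcont hsup hk he ((hin z hz1).trans hsub) (hG z hz) hK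
        (fun w hw => (abs_le.1 (hosc z (hin z hz1 (mem_closedBall_self he.le)) w
          (hin z hz1 hw))).2)
    refine ⟨(norm_sub_le _ _).trans (by linarith [nb x hx hx1, nb y hy hy1]),
      fun r hr hxy hre => ?_⟩
    exact two_points isOpen_ball hcont hsup hk hr hxy
      (((closedBall_subset_closedBall hre).trans (hin x hx1)).trans hsub)
      (((closedBall_subset_closedBall hre).trans (hin y hy1)).trans hsub)
      (hG x hx) (hG y hy) (nb x hx hx1) (nb y hy hy1)
  -- continuity of the subgradient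
  have loc : ∀ x (hx : x ∈ ball x₀ R), ∀ ε > 0, ∃ δ > 0, ∀ y, dist y x < δ →
      ∃ hy : y ∈ ball x₀ R, ‖G x hx - G y hy‖ ≤ ε := by
    intro x hx ε hε
    have hx' := mem_ball.1 hx
    set e := (R - dist x x₀) / 3 with he
    have he0 : 0 < e := by rw [he]; linarith
    set R₁ := dist x x₀ + e with hR1
    obtain ⟨B, hB⟩ := (isCompact_closedBall x₀ (R₁ + e)).exists_bound_of_continuousOn
      (hcont.mono (closedBall_subset_ball (by linarith)))
    have hB0 : 0 ≤ B := le_trans (norm_nonneg _)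
      (hB x₀ (mem_closedBall_self (by have := dist_nonneg (x := x) (y := x₀); linarith)))
    set M := 2 * B / e with hM
    have hM0 : 0 ≤ M := by positivity
    set r := min e (ε ^ 2 / (100 * (k * M + 1))) with hr
    have hr0 : 0 < r := lt_min he0 (by positivity)
    refine ⟨min r (ε * r / (4 * (M + 1))), lt_min hr0 (by positivity), fun y hy => ?_⟩
    have hy0 := hy.trans_le (min_le_left _ _)
    have hy2 := hy.trans_le (min_le_right _ _)
    have hre : r ≤ e := min_le_left _ _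
    have hyR1 : dist y x₀ ≤ R₁ := by have := dist_triangle y x x₀; linarith
    have hyR : y ∈ ball x₀ R := by rw [mem_ball]; linarith
    refine ⟨hyR, ?_⟩
    have hb := (est R₁ e (2 * B) he0 (by linarith) (by linarith) (fun a ha b hb => by
      have h1 := hB a ha
      have h2 := hB b hb
      rw [Real.norm_eq_abs, abs_le] at h1 h2
      rw [abs_le]
      constructor <;> linarith) x y hx hyR (by rw [mem_closedBall]; linarith)
      (by rw [mem_closedBall]; exact hyR1)).2 r hr0
      (by rw [← dist_eq_norm, dist_comm]; exact hy0.le) hre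
    rw [dist_eq_norm, norm_sub_rev] at hy2
    rw [← hM] at hb
    have h1 : 2 * M * ‖x - y‖ / r ≤ ε / 2 := by
      rw [lt_div_iff₀ (by positivity)] at hy2
      rw [div_le_iff₀ hr0]
      nlinarith [norm_nonneg (x - y)]
    have h2 : Real.sqrt (k * M * r) ≤ ε / 10 := by
      rw [Real.sqrt_le_iff]
      refine ⟨by positivity, ?_⟩
      have h : r ≤ ε ^ 2 / (100 * (k * M + 1)) := min_le_right _ _
      rw [le_div_iff₀ (by positivity)] at h
      nlinarith
    linarith
  have hder : ∀ x (hx : x ∈ ball x₀ R), HasFDerivAt u (innerSL ℝ (G x hx)) x := by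
    intro x hx
    rw [hasFDerivAt_iff_isLittleO, Asymptotics.isLittleO_iff]
    intro c hc
    obtain ⟨δ, hδ, hloc⟩ := loc x hx (c / 2) (by positivity)
    filter_upwards [ball_mem_nhds x hδ, ball_mem_nhds x (show 0 < c / (k + 1) by positivity)]
      with y hy hy'
    obtain ⟨hyR, hxy⟩ := hloc y hy
    have h1 := hG x hx y hyR
    have h2 := hG y hyR x hx
    have h3 : ⟪G y hyR - G x hx, y - x⟫ ≤ c / 2 * ‖y - x‖ :=
      (real_inner_le_norm _ _).trans (mul_le_mul_of_nonneg_right
        (by rw [norm_sub_rev (G y hyR)]; exact hxy) (norm_nonneg _))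
    have h4 : k / 2 * ‖y - x‖ ^ 2 ≤ c / 2 * ‖y - x‖ := by
      rw [mem_ball, dist_eq_norm, lt_div_iff₀ (by positivity)] at hy'
      nlinarith [norm_nonneg (y - x)]
    rw [← neg_sub y x, inner_neg_right, norm_neg] at h2
    rw [inner_sub_left] at h3
    rw [Real.norm_eq_abs, innerSL_apply_apply, abs_le]
    constructor <;> nlinarith [norm_nonneg (y - x)]
  have hdist : ∀ x y (hx : x ∈ ball x₀ R) (hy : y ∈ ball x₀ R),
      ‖fderiv ℝ u x - fderiv ℝ u y‖ = ‖G x hx - G y hy‖ := by
    intro x y hx hy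
    rw [(hder x hx).fderiv, (hder y hy).fderiv, ← map_sub, innerSL_apply_norm]
  refine ⟨?_, ?_⟩
  · rw [show (1 : WithTop ℕ∞) = 0 + 1 from rfl, contDiffOn_succ_iff_fderiv_of_isOpen isOpen_ball]
    refine ⟨fun x hx => (hder x hx).differentiableAt.differentiableWithinAt, by simp,
      contDiffOn_zero.2 fun x hx => ContinuousAt.continuousWithinAt ?_⟩
    rw [Metric.continuousAt_iff]
    intro ε hε
    obtain ⟨δ, hδ, hloc⟩ := loc x hx (ε / 2) (by positivity)
    refine ⟨δ, hδ, fun y hy => ?_⟩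
    obtain ⟨hyR, hxy⟩ := hloc y hy
    rw [dist_eq_norm, norm_sub_rev, hdist x y hx hyR]
    linarith
  · intro K hK x hx y hy
    have hxR : x ∈ ball x₀ R := ball_subset_ball (by linarith) hx
    have hyR : y ∈ ball x₀ R := ball_subset_ball (by linarith) hy
    have hK0 : 0 ≤ K := (abs_nonneg _).trans (hK x hxR y hyR)
    rcases eq_or_ne x y with rfl | hne
    · rw [sub_self, norm_zero]; positivity
    rw [hdist x y hxR hyR]
    obtain ⟨h1, h2⟩ := est (R / 2) (R / 4) K (by linarith) (by linarith) hK0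
      (fun a ha b hb => hK a (closedBall_subset_ball (by linarith) ha) b
        (closedBall_subset_ball (by linarith) hb)) x y hxR hyR
      (ball_subset_closedBall hx) (ball_subset_closedBall hy)
    have hM : K / (R / 4) = 4 * K / R := by field_simp
    rw [hM] at h1 h2
    have hh : 0 < ‖x - y‖ := norm_pos_iff.2 (sub_ne_zero.2 hne)
    refine choose_radius hh hR hK0 hk (by positivity) ?_ h1
      (fun r hr hr' => h2 r (hh.trans_le hr) hr hr')
    rw [← Real.rpow_natCast, ← Real.rpow_mul (by positivity)]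
    norm_num
    ring

/-- In every dimension a semiconvex infinity-superharmonic function on a ball, and likewise a
semiconcave infinity-subharmonic one, is C¹ and satisfies a dimension-free C^{1,1/3} estimate on
the half ball. -/
theorem result :
    ∀ (d : ℕ) (x₀ : EuclideanSpace ℝ (Fin d)) (R k : ℝ), 0 < R → 0 ≤ k →
      ∀ u : EuclideanSpace ℝ (Fin d) → ℝ,
        (ConvexOn ℝ (ball x₀ R) (fun z => u z + k / 2 * ‖z‖ ^ 2) ∧
              InfSupersolution (ball x₀ R) u) ∨
            (ConcaveOn ℝ (ball x₀ R) (fun z => u z - k / 2 * ‖z‖ ^ 2) ∧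
              InfSubsolution (ball x₀ R) u) →
        ContDiffOn ℝ 1 u (ball x₀ R) ∧
          ∀ K : ℝ, (∀ a ∈ ball x₀ R, ∀ b ∈ ball x₀ R, |u a - u b| ≤ K) →
            ∀ x ∈ ball x₀ (R / 2), ∀ y ∈ ball x₀ (R / 2),
              ‖fderiv ℝ u x - fderiv ℝ u y‖ ≤ 32 * K / R ^ 2 * ‖x - y‖ +
                7 * (16 * K ^ 2 * k * ‖x - y‖ / R ^ 2) ^ (1 / 3 : ℝ) := by
  intro d x₀ R k hR hk u h
  rcases h with ⟨hc, hs⟩ | ⟨hc, hs⟩
  · exact convex_case hR hk hc hs
  · have hsup : ∀ z ∈ ball x₀ R, ∀ φ : EuclideanSpace ℝ (Fin d) → ℝ, ContDiff ℝ 2 φ →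
        IsLocalMin (fun y => (-u) y - φ y) z →
          fderiv ℝ (fderiv ℝ φ) z (gradient φ z) (gradient φ z) ≤ 0 := by
      intro z hz φ hφ hmin
      have heq : (fun y => u y - (-φ) y) = fun y => -((-u) y - φ y) := by
        funext y
        simp only [Pi.neg_apply]
        ring
      have := hs z hz (-φ) hφ.neg (heq ▸ hmin.neg)
      have e1 : fderiv ℝ (-φ) = -fderiv ℝ φ := funext fun y => fderiv_neg
      have e2 : gradient (-φ) z = -gradient φ z := by
        simp only [gradient]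
        rw [fderiv_neg, map_neg]
      simp only [infLaplacian] at this
      rw [e1, e2, fderiv_neg] at this
      simp only [neg_apply, map_neg, neg_neg] at this
      linarith
    have hc' : ConvexOn ℝ (ball x₀ R) fun z => (-u) z + k / 2 * ‖z‖ ^ 2 := by
      refine hc.neg.congr fun z _ => ?_
      simp only [Pi.neg_apply]
      ring
    obtain ⟨h1, h2⟩ := convex_case hR hk hc' hsup
    refine ⟨by simpa using h1.neg, fun K hK x hx y hy => ?_⟩
    have := h2 K (fun a ha b hb => by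
      simp only [Pi.neg_apply]; rw [neg_sub_neg]; exact hK b hb a ha) x hx y hy
    rwa [fderiv_neg, fderiv_neg, neg_sub_neg, norm_sub_rev (fderiv ℝ u y)] at this

end Vale.Agent.Results.P080.SemiconvexClass
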