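import Vale.Agent.P080.Flat.Bridge

/-!
P080: uniform flatness of infinity-harmonic functions at every small scale in every dimension,
and the Liouville theorem for entire infinity-harmonic functions of linear growth.
-/

namespace Vale.Agent.Results.P080.UniformFlatness

open Metric Set Vale.Agent.P080.Flat
open scoped RealInnerProductSpace

/-- The infinity-Laplacian `⟪D²φ ∇φ, ∇φ⟫` at `z`. -/
noncomputable def infLaplacian {d : ℕ} (φ : EuclideanSpace ℝ (Fin d) → ℝ)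
    (z : EuclideanSpace ℝ (Fin d)) : ℝ :=
  fderiv ℝ (fderiv ℝ φ) z (gradient φ z) (gradient φ z)

/-- Continuous viscosity solution of the infinity-Laplace equation on `s`. -/
def InfHarmonic {d : ℕ} (s : Set (EuclideanSpace ℝ (Fin d)))
    (u : EuclideanSpace ℝ (Fin d) → ℝ) : Prop :=
  ContinuousOn u s ∧
  (∀ z ∈ s, ∀ φ : EuclideanSpace ℝ (Fin d) → ℝ, ContDiff ℝ 2 φ →
    IsLocalMax (fun y => u y - φ y) z → 0 ≤ infLaplacian φ z) ∧
  (∀ z ∈ s, ∀ φ : EuclideanSpace ℝ (Fin d) → ℝ, ContDiff ℝ 2 φ →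
    IsLocalMin (fun y => u y - φ y) z → infLaplacian φ z ≤ 0)

theorem result :
    (∀ ε : ℝ, 0 < ε → ∃ θ : ℝ, 0 < θ ∧
      ∀ (d : ℕ) (x₀ : EuclideanSpace ℝ (Fin d)) (R K : ℝ) (u : EuclideanSpace ℝ (Fin d) → ℝ),
        0 < R → InfHarmonic (ball x₀ R) u →
        (∀ z ∈ ball x₀ R, ∀ w ∈ ball x₀ R, u z - u w ≤ K) →
        ∀ x ∈ closedBall x₀ (R / 2),
          (∀ h, ‖h‖ ≤ θ * R → |u (x + h) + u (x - h) - 2 * u x| ≤ ε * K / R * ‖h‖) ∧
          (∀ r, 0 < r → r ≤ θ * R → ∃ p : EuclideanSpace ℝ (Fin d),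
            ∀ y ∈ closedBall x r, |u y - u x - ⟪p, y - x⟫| ≤ ε * K / R * r)) ∧
    (∀ (d : ℕ) (u : EuclideanSpace ℝ (Fin d) → ℝ), InfHarmonic univ u →
      (∃ C : ℝ, ∀ x, |u x| ≤ C * (1 + ‖x‖)) →
      ∃ p : EuclideanSpace ℝ (Fin d), ∀ x, u x = u 0 + ⟪p, x⟫) := by
  refine ⟨fun ε hε => ?_, fun d u hu hC => liouville hu.1 hu.2.1 hu.2.2 hC⟩
  obtain ⟨θ, hθ, h⟩ := uniform_flat hε
  exact ⟨θ, hθ, fun d x₀ R K u hR hu hosc => h x₀ R K u hR hu.1 hu.2.1 hu.2.2 hosc⟩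

end Vale.Agent.Results.P080.UniformFlatness
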